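import Vale.Agent.P022K.G2.Tam
import Vale.Agent.P022K.CH.Mink
import Vale.Agent.P004S.Bas3

/-! # P014Z: characters modulo `p` on the inertia groups at `p` (helper40) -/

set_option autoImplicit false
set_option linter.all false

noncomputable section

namespace Vale.Agent.P014Z.Inr

open NumberField
open Vale.Agent.P022 (Qb GQ)
open Vale.Agent.P027M.S (Inert)
open Vale.Agent.P022E.GW (Ov)
open Vale.Agent.P022K.G2
open Vale.Agent.P022K.CH (mink_top)
open Vale.Agent.P022K.CH.Loc (WMod cyc_level)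

variable {p : ℕ} [Fact p.Prime] {P : Ideal (𝓞 Qb)}

/-- the cyclotomic character as a map of monoids -/
def wz (p : ℕ) [Fact p.Prime] : GQ →* ZMod p := (Units.coeHom _).comp (om0 p)

theorem wz_eq (g : GQ) : wz p g = oz p g := rfl

theorem oz_sur {u : ZMod p} (n : u ≠ 0) : ∃ g, oz p g = u := by
  have hp := zt_prim p
  have pos := (Fact.out : p.Prime).pos
  have h2 := hp.pow_of_coprime _ (ZMod.val_coe_unit_coprime (Units.mk0 u n))
  have c : IsConjRoot ℚ (zt p ^ u.val) (zt p) := by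
    show minpoly ℚ _ = minpoly ℚ _
    rw [← Polynomial.cyclotomic_eq_minpoly_rat hp pos]
    exact (Polynomial.cyclotomic_eq_minpoly_rat h2 pos).symm
  have := P022.H443.galQb
  obtain ⟨g, e⟩ := isConjRoot_iff_exists_algEquiv.1 c
  exact ⟨g, pw_inj ((oz_spec g).symm.trans e)⟩

theorem ne0 (θ : GQ →* ZMod p) (g : GQ) : θ g ≠ 0 := ((Group.isUnit g).map θ).ne_zero

theorem cj (θ : GQ →* ZMod p) (t g : GQ) : θ (t⁻¹ * g * t) = θ g := by
  rw [map_mul, map_mul, mul_right_comm, ← map_mul, inv_mul_cancel, map_one, one_mul]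

theorem wm {U : Subgroup GQ} {τ g : GQ} {n : ℕ} (h : WMod p U ((τ ^ n)⁻¹ * g)) {θ : GQ →* ZMod p}
    (k : U ≤ θ.ker) : θ g = θ τ ^ n := by
  obtain ⟨m, e⟩ := h
  have := k e
  rw [MonoidHom.mem_ker, map_pow, ZMod.pow_card_pow] at this
  rw [← map_pow, ← mul_inv_cancel_left (τ ^ n) g, map_mul, this, mul_one]

/-- a tame generator -/
theorem ex_gen (o : Ov p P) {θ : GQ →* ZMod p} (h : IsOpen (θ.ker : Set GQ)) : ∃ τ, Inert P τ ∧
    (∀ u : ZMod p, u ≠ 0 → ∃ n : ℕ, oz p τ ^ n = u) ∧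
    ∀ g, Inert P g → ∃ n : ℕ, θ g = θ τ ^ n ∧ oz p g = oz p τ ^ n := by
  obtain ⟨τ, i, e⟩ := cyc_level (θ.ker ⊓ Gz p) (h.inter Gz_open) o
  have k : ∀ g, Inert P g → ∃ n : ℕ, θ g = θ τ ^ n ∧ oz p g = oz p τ ^ n := fun g m =>
    (e g m).imp fun n w => ⟨wm w inf_le_left, wm (θ := wz p) w fun _ m => mem_Gz.1 m.2⟩
  refine ⟨τ, i, fun u n => ?_, k⟩
  obtain ⟨g, rfl⟩ := oz_sur n
  have le : Gz p ≤ (Subgroup.zpowers (om0 p τ)).comap (om0 p) := fun g m => by
    rw [Subgroup.mem_comap, show om0 p g = 1 from m]; exact one_mem _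
  have := (mink_top _ (Subgroup.isOpen_mono le Gz_open) fun l Q o' s j => by
    by_cases c : l = p
    · subst c
      obtain ⟨t, a, -⟩ := P004S.ex_conj o o'
      obtain ⟨n, -, e⟩ := k _ (a s j)
      exact ⟨n, Units.ext (by
        simpa only [zpow_natCast, Units.val_pow_eq_pow_val, wz_eq, oz] using e.symm.trans (cj (wz _) t s))⟩
    · exact le (inert_gz o' c j)).ge (Subgroup.mem_top g)
  obtain ⟨n, e⟩ := mem_powers_iff_mem_zpowers.2 this
  exact ⟨n, by simpa only [Units.val_pow_eq_pow_val, oz] using congrArg Units.val e⟩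

/-- the cyclotomic character is onto on inertia -/
theorem oz_in (o : Ov p P) {u : ZMod p} (n : u ≠ 0) : ∃ i, Inert P i ∧ oz p i = u := by
  obtain ⟨τ, i, s, -⟩ := ex_gen o (θ := wz p) (by
    convert Gz_open (p := p) using 1
    exact Set.ext fun g => mem_Gz.symm)
  obtain ⟨m, e⟩ := s u n
  exact ⟨τ ^ m, (P022.H443.inP P).pow_mem i m, (map_pow (wz p) τ m).trans e⟩

theorem pw_mod {x : ZMod p} (n : x ≠ 0) (j : ℕ) : x ^ j = x ^ (j % (p - 1)) :=
  pow_eq_pow_mod j (ZMod.pow_card_sub_one_eq_one n)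

/-- `θ` is the power `j` of the cyclotomic character on the inertia groups at `p` -/
def Iw (θ : GQ → ZMod p) (j : ℕ) : Prop := ∀ P, Ov p P → ∀ i, Inert P i → θ i = oz p i ^ j

/-- **the restriction to inertia** -/
theorem inr (θ : GQ →* ZMod p) (h : IsOpen (θ.ker : Set GQ)) : ∃ j < p - 1, Iw θ j := by
  have p2 := (Fact.out : p.Prime).two_le
  by_cases x : ∃ P, Ov p P
  swap
  · exact ⟨0, by omega, fun P o => (x ⟨P, o⟩).elim⟩
  obtain ⟨P, o⟩ := x
  obtain ⟨τ, -, s, k⟩ := ex_gen o h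
  obtain ⟨j, e⟩ := s _ (ne0 θ τ)
  refine ⟨j % (p - 1), Nat.mod_lt _ (by omega), fun Q o' g i => ?_⟩
  obtain ⟨t, a, -⟩ := P004S.ex_conj o o'
  obtain ⟨n, e1, e2⟩ := k _ (a g i)
  rw [cj] at e1
  rw [← pw_mod (oz_ne g), e1, ← e, ← wz_eq g, ← cj _ t, wz_eq, e2, ← pow_mul, ← pow_mul, mul_comm]

/-- the exponent is determined -/
theorem Iw.uq {θ : GQ → ZMod p} {j k : ℕ} (o : Ov p P) (h : Iw θ j) (h' : Iw θ k) :
    j ≡ k [MOD p - 1] := by
  obtain ⟨u, e⟩ := IsCyclic.exists_ofOrder_eq_natCard (α := (ZMod p)ˣ)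
  obtain ⟨i, a, b⟩ := oz_in o u.ne_zero
  rw [Nat.card_eq_fintype_card, ZMod.card_units] at e
  rw [← e, ← pow_eq_pow_iff_modEq]
  exact Units.ext (by
    simpa only [Units.val_pow_eq_pow_val, b] using (h P o i a).symm.trans (h' P o i a))

/-- the other character -/
theorem Iw.oth {θ θ' : GQ → ZMod p} {j : ℕ} (h : Iw θ j) (l : j ≤ p)
    (e : ∀ g, θ g * θ' g = oz p g) : Iw θ' ((p - j) % (p - 1)) := fun P o i a => by
  refine mul_left_cancel₀ (pow_ne_zero j (oz_ne i)) ?_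
  rw [← pw_mod (oz_ne i), ← pow_add, Nat.add_sub_cancel' l, ZMod.pow_card, ← h P o i a, e]

/-- **one of the two characters is an even power** -/
theorem even (od : Odd p) (θ θ' : GQ →* ZMod p) (h : IsOpen (θ.ker : Set GQ))
    (e : ∀ g, θ g * θ' g = oz p g) : ∃ j < p - 1, Even j ∧ (Iw θ j ∨ Iw θ' j) := by
  obtain ⟨j, l, w⟩ := inr θ h
  rcases j.even_or_odd with v | v
  · exact ⟨j, l, v, .inl w⟩
  · refine ⟨_, Nat.mod_lt _ (by omega), ?_, .inr (w.oth (by omega) e)⟩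
    exact (Nat.even_iff.2 (((Nat.mod_mod_of_dvd _ (Nat.Odd.sub_odd od odd_one).two_dvd)).trans
      (Nat.even_iff.1 (Nat.Odd.sub_odd od v))))

end Vale.Agent.P014Z.Inr
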