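import Vale.Agent.P014Z.St

/-! # P014Z: the anchor, second form of the glue (trivial zeros on the Kummer side) -/

set_option autoImplicit false
set_option linter.all false

noncomputable section

namespace Vale.Agent.P014Z.Gl

open Vale.Agent.P022 (Qb GQ)
open Vale.Agent.P022.H218.L3 Vale.Agent.P022.H236.L3
open Vale.Agent.P014U
open P014Y.F (Crv Fld)
open P004R (Vn)

variable [Pp]

/-- **the trivial zeros, Kummer form** -/
def TZK : Prop := ∀ (e : Crv) (D : Da e) (b : Fld e) n (L : Lt D b n), Kd b D.η D.η' L.c L.χ →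
  ∀ a, a.Coprime (orderOf D.η) → L.t < pp ^ (n + 1) →
    Pw L.U ((dT L.γ)^[pp ^ (n + 1) - L.t] (L.X a))

/-- the leading terms of the unit, first power only -/
def BR1 : Prop := ∀ (e : Crv) (D : Da e) (b : Fld e) n (L : Lt D b n),
  Wv b D.η L.χ L.U 1 (L.X 1) ∧ ∃ (Φ : GQ → Qb) (y : ℕ → Qb), Ew b D.ψ 1 L.c Φ ∧
    (∀ m : ℕ, Lm (e.P pp) (lv D.k 1) ((L.γ ^ m) (L.X 1)) (y m)) ∧
    ∀ l, Vn (e.P pp) L.R L.χ Φ l → Od (e.P pp) (pp ^ (n + 1)) y l

/-- the local conditions detect the classes, the count at one level only -/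
def INW : Prop := ∀ (e : Crv) (D : Da e) (b : Fld e) n (L : Lt D b n), Kd b D.η D.η' L.c L.χ →
  ∀ a, a.Coprime (orderOf D.η) →
  Bd b D.η L.χ L.U L.γ a (pp ^ (n + 1) - pp ^ n) (pp ^ (n + 1) - pp ^ n + L.t) ∧
  ∀ x (y : ℕ → Qb) l, Wv b D.η L.χ L.U a x → (∀ m : ℕ, Lm (e.P pp) (lv D.k a) ((L.γ ^ m) x) (y m)) →
    l < pp ^ (n + 1) → Od (e.P pp) (pp ^ (n + 1)) y l → Pw L.U ((dT L.γ)^[pp ^ (n + 1) - l] x)

theorem inw (hI : INJ) : INW := fun e D b n L k a h =>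
  ⟨(hI e D b n L k a h).1 _ (Nat.sub_le _ _), (hI e D b n L k a h).2⟩

theorem br1 (hB : BRV) : BR1 := fun e D b n L =>
  let ⟨w, Φ, y, p1, p2, p3⟩ := hB e D b n L 1 (Nat.coprime_one_left _)
  ⟨w, Φ, y, p1, p2, fun l => (p3 l).2⟩

theorem tzk (hI : INW) (hB : BRV) (hZ : TZ) : TZK := fun e D b n L k a h l => by
  obtain ⟨w, Φ, y, p1, p2, p3⟩ := hB e D b n L a h
  exact (hI e D b n L k a h).2 _ y _ w p2 l ((p3 _).2 (hZ e D b n L a Φ h p1 l.le))

theorem anz1 (hT : TOW) (hD : DAT) (hA : ACX) (hI : INW) (hB : BR1) (hZ : TZK) (hL : LNK)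
    (hR : RAX) : ANZ := fun e D => by
  obtain ⟨T, hT'⟩ := hL e D
  refine ⟨T, fun b le => ?_⟩
  obtain ⟨m, H⟩ := hT e D b
  choose c χ γ lz kd cd tw using H
  obtain ⟨B, hb⟩ := hR e D b m
  have big : ∀ k : ℕ, ∀ᶠ n in Filter.atTop, k < pp ^ n := fun k =>
    (Filter.eventually_ge_atTop k).mono fun n l =>
      (Nat.lt_pow_self one_lt).trans_le (Nat.pow_le_pow_right pp_pos l)
  have up : ∀ n, pp ^ n ≤ pp ^ (n + 1) := fun n => Nat.pow_le_pow_right pp_pos n.le_succ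
  refine ⟨m, B, c, fun n g => (χ n g).val, (Filter.eventually_ge_atTop m).mono tw, fun J =>
    (big J).mono fun n l => (hb n _ _ _ (lz n) (kd n) (cd n) J (l.le.trans (up n))).1, B, ?_⟩
  filter_upwards [big B, big (2 * m * pp), big (2 * m + 1 + cs D.ψ e.S)] with n l1 l2 l3
  obtain ⟨L, e1, e2, e3⟩ := hD e D b n _ _ _ (lz n)
  have k : Kd b D.η D.η' L.c L.χ := by rw [e2, e1]; exact kd n
  have t : L.t ≤ 2 * m := Nat.mul_le_mul_left 2 (by rw [e1]; exact cd n)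
  have u := up n
  have a := hA e D b n L L.t ((Nat.mul_le_mul_right _ t).trans_lt l2) fun a h =>
    ⟨(hI e D b n L k a h).1, hZ e D b n L k a h (by omega)⟩
  obtain ⟨w, Φ, y, p1, p2, p3⟩ := hB e D b n L
  have z := hT' b le n L Φ L.t p1 (by omega) fun v => a
    ((hI e D b n L k 1 (Nat.coprime_one_left _)).2 _ y _ w p2 (by omega) (p3 _ v))
  refine ⟨L.t + cs D.ψ e.S, ?_, by rw [← e1, ← e2]; exact z⟩
  have := (hb n _ _ _ (lz n) (kd n) (cd n) B (l1.le.trans u)).2 le_rfl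
  rwa [Lt.t, e1]

end Vale.Agent.P014Z.Gl
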