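import Vale.Agent.P014Z.Cmn
import Vale.Agent.P014Z.Rp.All
import Vale.Agent.P014Z.Gl.All1

/-! # P014Z: the closed form, a rational isogeny -/

namespace Vale.Agent.P014Z.Top

theorem isog_all : BSDW HasIsog := isog_of Lk.x_cha Gl.anz_all Rp.redp_all

end Vale.Agent.P014Z.Top
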