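import Vale.Agent.P014Z.Cmn
import Vale.Agent.P014Z.Rp.All

/-! # P014Z: the closed form, a trivial constituent -/

namespace Vale.Agent.P014Z.Top

theorem triv_all : BSDW HasTriv := triv_of Rp.redp_all

end Vale.Agent.P014Z.Top
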