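import Vale.Agent.P014Y.Bo.Lv1
import Vale.Agent.P014Z.Ml.Wd
import Vale.Agent.P014Z.Su.Defs

/-! # P014Z: the anchor for a reducible curve with a nontrivial even character (words, exports) -/

set_option autoImplicit false
set_option linter.all false

noncomputable section

namespace Vale.Agent.P014Z.Gl

open NumberField UpperHalfPlane CongruenceSubgroup Finset
open scoped Classical
open Vale.Agent.P022 (Qb GQ GK below)
open Vale.Agent.P022.H218.L3 Vale.Agent.P022.H236.L3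
open Vale.Agent.P027M.S (Inert)
open Vale.Agent.P022D.W (dec)
open Vale.Agent.P022E.GW (Ov Fb)
open Vale.Agent.P022K.G2 (oz zt Tv)
open Vale.Agent.P014U P004K
open Vale.Agent.P027M.M (io)
open P014Y.F (Crv Fld)
open P014Y.Mu (F Bl Ly rb)
open P014Y.Bo (dg Cd)
open P004R (Vn)
open Ml (Tri)

variable [Pp]

/-- residual characters -/
abbrev Ch : Type := GQ →* F

/-- the two characters of the curve; `η` is an even power of `ω` on inertia at `pp` -/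
structure Ec (e : Crv) (η η' : Ch) (k : ℕ) : Prop where
  tri : Tri ⊤ (rb e) η η' ∨ Tri ⊤ (rb e) η' η
  det : ∀ g, η g * η' g = oz pp g
  ev : Even k
  ine : ∀ P g, Ov pp P → Inert P g → η g = oz pp g ^ k

/-- `η` is the primitive Dirichlet character `ψ` -/
structure Dc (S : List ℕ) (η : Ch) (f : ℕ) (ψ : DirichletCharacter F f) : Prop where
  one : 1 < f
  prim : ψ.IsPrimitive
  sup : ∀ l : ℕ, l.Prime → l ∣ f → l ∈ S
  sq : ¬ pp ^ 2 ∣ f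
  eq : ∀ g (a : ℕ), (∀ ζ : Qb, ζ ^ f = 1 → g ζ = ζ ^ a) → η g = ψ a

/-- the smoothing data -/
structure Sm (f : ℕ) [NeZero f] (ψ : DirichletCharacter F f) (c c₀ m : ℕ) : Prop where
  cop : c₀.Coprime f
  ker : ψ c₀ = 1
  ne : (c₀ : F) ≠ 1
  md : c₀ ≡ 1 [MOD c]
  dv : f ∣ m * Su.sq f
  dc : c ∣ m
  df : ∀ f', f' ∣ f → ¬ pp ∣ f' → f' ∣ m
  np : ¬ pp ∣ m

/-- the plane of `η ^ a` and `ω η ^ (-a)` -/
def pa (η η' : Ch) (a : ℕ) : GQ →* L2.M2 := dg (η ^ a) (η' * η ^ (1 + (pp - 2) * a))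

/-- the level of the leading term, in `[1, pp - 1]` -/
def lv (k a : ℕ) : ℕ := (k * a + (pp - 2)) % (pp - 1) + 1

/-- the coefficients of the Eisenstein series after one integration -/
def ec {f : ℕ} (ψ : DirichletCharacter F f) (a n : ℕ) : F :=
  ∑ x ∈ n.divisorsAntidiagonal, (ψ x.1)⁻¹ ^ a * ψ x.2 ^ a * (x.2 : F)⁻¹

/-- the cost of the depletion -/
def cs {f : ℕ} (ψ : DirichletCharacter F f) (S : List ℕ) : ℕ :=
  (S.filter fun l : ℕ => ψ l = 1).length + (S.filter fun l : ℕ => l ≠ pp ∧ ψ l = l).length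

/-- `γ - 1` -/
def dT (γ : GQ) (x : Qb) : Qb := γ x / x

/-- `x` is the power of an element which is fixed by `U` -/
def Pw (U : Subgroup GQ) (x : Qb) : Prop := ∃ y : Qb, (∀ g ∈ U, g y = y) ∧ x = y ^ pp

/-- **the leading term**: `x = y ^ p (1 + π ^ i z + ..)` at `P`, `y` unramified over `ℚ(ζ_p)` -/
def Lm (P : Ideal (𝓞 Qb)) (i : ℕ) (x z : Qb) : Prop := Ip P z ∧ ∃ y : Qb, y ≠ 0 ∧
  (∀ g, Inert P g → oz pp g = 1 → g y = y) ∧ Zp P ((x / y ^ pp - 1) / (zt pp - 1) ^ i - z)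

/-- `T ^ l` divides `∑ (1 + T) ^ m y m` -/
def Od (P : Ideal (𝓞 Qb)) (N : ℕ) (y : ℕ → Qb) (l : ℕ) : Prop :=
  ∀ i < l, Zp P (∑ m ∈ range N, (m.choose i : Qb) * y m)

section

variable {e : Crv} (b : Fld e)

/-- the ideal of level `f ^ 2` -/
def Fi (f : ℕ) : Ideal (𝓞 b.K) :=
  ∏ l ∈ f.primeFactors, below b.j (e.P l) ^ (2 * f.factorization l)

/-- the group of `H_c(μ_f)` -/
def Hf (c f : ℕ) : Subgroup GQ := Hc b.j c ⊓ ⨅ ζ ∈ {ζ : Qb | ζ ^ f = 1}, MulAction.stabilizer GQ ζ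

/-- **the unit at the Heegner point** -/
def Us (f : ℕ) [NeZero f] (c c₀ m : ℕ) (s : Qb) : Prop := ∀ g ∈ b.Γ, ∀ σ τ τ' (t : ℤ), Ex σ g →
  Hp (JJ b.j) (f ^ 2) (Fi b f) c τ → Cj0 σ (f ^ 2) τ τ' → Cy σ f t →
  io (g s) = Su.us f c₀ m (t : ZMod f) τ'

/-- **the values of the Eisenstein function at the conjugates of the Heegner point** -/
def Ew {f : ℕ} (ψ : DirichletCharacter F f) (a c : ℕ) (Φ : GQ → Qb) : Prop :=
  ∃ (W : ℍ → ℂ) (h : W ∈ Hol) (s : _), inc W h ∈ MF (Gamma0 ((f * pp) ^ 2)) ∧ ExM 1 s (inc W h) ∧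
    (∀ n < 0, s.coeff n = 0) ∧
    (∀ n : ℕ, ∃ z : Qb, s.coeff n = io z ∧ Ip (e.P pp) ((z - (ec ψ a n).val) / (zt pp - 1))) ∧
    ∀ g ∈ b.Γ, ∀ σ τ τ', Ex σ g → Hp (JJ b.j) ((f * pp) ^ 2) (Fi b (f * pp)) c τ →
      Cj0 σ ((f * pp) ^ 2) τ τ' → io (Φ g) = W τ'

variable (η η' : Ch)

/-- one layer: all primes of `c` are split, principal and in the kernel of `η` -/
structure Lz (n c : ℕ) (χ : GQ → ZMod (pp ^ (n + 1))) (γ : GQ) : Prop where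
  ly : Ly b.Γ e.S.toFinset (n + 1) c fun g => (χ g).val
  add : ∀ g ∈ b.Γ, ∀ h ∈ b.Γ, χ (g * h) = χ g + χ h
  ker : ∀ g ∈ Hc b.j c, χ g = 0
  sq : Squarefree c
  one : 1 < c
  cop : c.Coprime b.δ'
  hc : ∀ q P, Ov q P → q ∣ c → dec P ≤ Hc b.j 1 ⊓ η.ker
  g0 : γ ∈ b.Γ
  g1 : η γ = 1
  g2 : χ γ = 1

/-- **killed**: every faithful power -/
def Kd (c : ℕ) {N : ℕ} (χ : GQ → ZMod N) : Prop := ∃ σ : ℕ → GQ,
  (∀ q ∈ c.primeFactors, (∃ P, Ov q P ∧ Fb q P (σ q)) ∧ ∀ g, pp ∣ (χ (g * σ q * g⁻¹)).val) ∧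
  ∀ a, a.Coprime (orderOf η) → ∀ y,
    Cd (pa η η' a) b.Γ e.S.toFinset c.primeFactors σ (e.P pp) y → y ∈ Bl (pa η η' a) b.Γ

variable {N : ℕ} (χ : GQ → ZMod N)

/-- `U` is the group of the layer over `K(η)` -/
def Ug (U : Subgroup GQ) : Prop := ∀ g, g ∈ U ↔ g ∈ b.Γ ∧ η g = 1 ∧ χ g = 0

/-- numbers of the layer in the eigenspace of `η ^ a` with valuations divisible by `pp` -/
structure Wv (U : Subgroup GQ) (a : ℕ) (x : Qb) : Prop where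
  ne : x ≠ 0
  fix : ∀ g ∈ U, g x = x
  val : ∀ l P, Ov l P → ∃ y : Qb, y ≠ 0 ∧ (∀ g ∈ U, g y = y) ∧
    Ip P (x / y ^ pp) ∧ Ip P (y ^ pp / x)
  eig : ∀ g ∈ b.Γ, χ g = 0 → Pw U (g x / x ^ (η g ^ a).val)

/-- at most `pp ^ w` classes are killed by `T ^ i` -/
def Bd (U : Subgroup GQ) (γ : GQ) (a i w : ℕ) : Prop :=
  ∃ (Z : Type) (_ : Finite Z) (κ : Qb → Z), Nat.card Z ≤ pp ^ w ∧ ∀ x y,
    Wv b η χ U a x → Wv b η χ U a y → Pw U ((dT γ)^[i] x) → Pw U ((dT γ)^[i] y) →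
    κ x = κ y → Pw U (x / y)

/-- **the component of the unit** -/
def Xa (R : Finset GQ) (s : Qb) (a : ℕ) : Qb :=
  ∏ g ∈ R with χ g = 0, g s ^ ((η g)⁻¹ ^ a).val

end

/-- the data of the curve -/
structure Da (e : Crv) where
  η : Ch
  η' : Ch
  k : ℕ
  f : ℕ
  [nz : NeZero f]
  ψ : DirichletCharacter F f
  ec : Ec e η η' k
  dc : Dc e.S η f ψ
  five : 5 ≤ pp

attribute [instance] Da.nz

/-- the data of a level -/
structure Lt {e : Crv} (D : Da e) (b : Fld e) (n : ℕ) where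
  c : ℕ
  χ : GQ → ZMod (pp ^ (n + 1))
  γ : GQ
  U : Subgroup GQ
  c₀ : ℕ
  m : ℕ
  s : Qb
  R : Finset GQ
  R' : Finset GQ
  lz : Lz b D.η n c χ γ
  ug : Ug b D.η χ U
  sm : Sm D.f D.ψ c c₀ m
  us : Us b D.f c c₀ m s
  tv : Tv b.Γ (Hc b.j c) R
  tv' : Tv b.Γ (Hf b c D.f) R'

namespace Lt

variable {e : Crv} {D : Da e} {b : Fld e} {n : ℕ} (L : Lt D b n)

/-- the component of the unit -/
abbrev X (a : ℕ) : Qb := Xa D.η L.χ L.R' L.s a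

/-- the number of places above `c` -/
abbrev t : ℕ := 2 * L.c.primeFactors.card

end Lt

/-! ### exports -/

/-- a stable line -/
def Ri (e : Crv) : Prop := ∃ v : Fin 2 → F, v ≠ 0 ∧ ∀ g, ∃ t : F, (rb e g).mulVec v = t • v

/-- a fixed vector or a fixed linear form -/
def Ei (e : Crv) : Prop := ∃ v : Fin 2 → F, v ≠ 0 ∧
  ((∀ g, (rb e g).mulVec v = v) ∨ ∀ g, Matrix.vecMul v (rb e g) = v)

/-- the characters (Lk) -/
def CHA : Prop := 5 ≤ pp → ∀ e : Crv, Ri e → Ei e ∨ Nonempty (Da e)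

/-- **the tower** (Rk) -/
def TOW : Prop := ∀ (e : Crv) (D : Da e) (b : Fld e), ∃ m : ℕ, ∀ n, ∃ c χ γ,
  Lz b D.η n c χ γ ∧ Kd b D.η D.η' c χ ∧ c.primeFactors.card ≤ m ∧
  (m ≤ n → b.Tw m n c fun g => (χ g).val)

/-- the data exist (Su) -/
def DAT : Prop := ∀ (e : Crv) (D : Da e) (b : Fld e) n c χ γ, Lz b D.η n c χ γ →
  ∃ L : Lt D b n, L.c = c ∧ L.χ = χ ∧ L.γ = γ

/-- **the class number formula** (Ac) -/
def ACX : Prop := ∀ (e : Crv) (D : Da e) (b : Fld e) n (L : Lt D b n) (w : ℕ), w * pp < pp ^ n →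
  (∀ a, a.Coprime (orderOf D.η) →
    Bd b D.η L.χ L.U L.γ a (pp ^ (n + 1) - pp ^ n) (pp ^ (n + 1) - pp ^ n + w) ∧
    Pw L.U ((dT L.γ)^[pp ^ (n + 1) - w] (L.X a))) →
  ¬ Pw L.U ((dT L.γ)^[pp ^ (n + 1) - (w + 1)] (L.X 1))

/-- **the local conditions detect the classes** (In) -/
def INJ : Prop := ∀ (e : Crv) (D : Da e) (b : Fld e) n (L : Lt D b n), Kd b D.η D.η' L.c L.χ →
  ∀ a, a.Coprime (orderOf D.η) →
  (∀ i ≤ pp ^ (n + 1), Bd b D.η L.χ L.U L.γ a i (i + L.t)) ∧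
  ∀ x (y : ℕ → Qb) l, Wv b D.η L.χ L.U a x → (∀ m : ℕ, Lm (e.P pp) (lv D.k a) ((L.γ ^ m) x) (y m)) →
    l < pp ^ (n + 1) → Od (e.P pp) (pp ^ (n + 1)) y l → Pw L.U ((dT L.γ)^[pp ^ (n + 1) - l] x)

/-- **the leading terms of the unit** (Lk) -/
def BRV : Prop := ∀ (e : Crv) (D : Da e) (b : Fld e) n (L : Lt D b n) a,
  a.Coprime (orderOf D.η) → Wv b D.η L.χ L.U a (L.X a) ∧ ∃ (Φ : GQ → Qb) (y : ℕ → Qb), Ew b D.ψ a L.c Φ ∧
    (∀ m : ℕ, Lm (e.P pp) (lv D.k a) ((L.γ ^ m) (L.X a)) (y m)) ∧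
    ∀ l, Od (e.P pp) (pp ^ (n + 1)) y l ↔ Vn (e.P pp) L.R L.χ Φ l

/-- **the trivial zeros** (Tz) -/
def TZ : Prop := ∀ (e : Crv) (D : Da e) (b : Fld e) n (L : Lt D b n) a Φ,
  a.Coprime (orderOf D.η) → Ew b D.ψ a L.c Φ → L.t ≤ pp ^ (n + 1) → Vn (e.P pp) L.R L.χ Φ L.t

/-- **the link with the curve** (Lk) -/
def LNK : Prop := ∀ (e : Crv) (D : Da e), ∃ T, ∀ b : Fld e, T ≤ b.δ' → ∀ n (L : Lt D b n) Φ l,
  Ew b D.ψ 1 L.c Φ → l + 1 + cs D.ψ e.S ≤ pp ^ (n + 1) → ¬ Vn (e.P pp) L.R L.χ Φ (l + 1) →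
  b.An e.S L.c (fun g => (L.χ g).val) (l + cs D.ψ e.S)

/-- **the count** (Ra) -/
def RAX : Prop := ∀ (e : Crv) (D : Da e) (b : Fld e) (m : ℕ), ∃ B : ℕ, ∀ n c χ γ,
  Lz b D.η n c χ γ → Kd b D.η D.η' c χ → c.primeFactors.card ≤ m → ∀ J ≤ pp ^ (n + 1),
  Nat.card (b.Z0 J c fun g => (χ g).val) ≤ pp ^ B ∧ (B ≤ J →
    pp ^ (2 * (2 * c.primeFactors.card + cs D.ψ e.S)) ≤ Nat.card (b.Z0 J c fun g => (χ g).val))

/-- **the anchor** -/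
def ANZ : Prop := ∀ (e : Crv) (_ : Da e), ∃ T, ∀ b : Fld e, T ≤ b.δ' → b.Anc

theorem anz (hT : TOW) (hD : DAT) (hA : ACX) (hI : INJ) (hB : BRV) (hZ : TZ) (hL : LNK)
    (hR : RAX) : ANZ := fun e D => by
  obtain ⟨T, hT'⟩ := hL e D
  refine ⟨T, fun b le => ?_⟩
  obtain ⟨m, H⟩ := hT e D b
  choose c χ γ lz kd cd tw using H
  obtain ⟨B, hb⟩ := hR e D b m
  have big : ∀ k : ℕ, ∀ᶠ n in Filter.atTop, k < pp ^ n := fun k =>
    (Filter.eventually_ge_atTop k).mono fun n l =>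
      (Nat.lt_pow_self one_lt).trans_le (Nat.pow_le_pow_right pp_pos l)
  have up : ∀ n, pp ^ n ≤ pp ^ (n + 1) := fun n => Nat.pow_le_pow_right pp_pos n.le_succ
  refine ⟨m, B, c, fun n g => (χ n g).val, (Filter.eventually_ge_atTop m).mono tw, fun J =>
    (big J).mono fun n l => (hb n _ _ _ (lz n) (kd n) (cd n) J (l.le.trans (up n))).1, B, ?_⟩
  filter_upwards [big B, big (2 * m * pp), big (2 * m + 1 + cs D.ψ e.S)] with n l1 l2 l3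
  obtain ⟨L, e1, e2, e3⟩ := hD e D b n _ _ _ (lz n)
  have k : Kd b D.η D.η' L.c L.χ := by rw [e2, e1]; exact kd n
  have t : L.t ≤ 2 * m := Nat.mul_le_mul_left 2 (by rw [e1]; exact cd n)
  have u := up n
  have a := hA e D b n L L.t ((Nat.mul_le_mul_right _ t).trans_lt l2) fun a h => by
    obtain ⟨w, Φ, y, p1, p2, p3⟩ := hB e D b n L a h
    exact ⟨(hI e D b n L k a h).1 _ (Nat.sub_le _ _), (hI e D b n L k a h).2 _ y _ w p2 (by omega)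
      ((p3 _).2 (hZ e D b n L a Φ h p1 (by omega)))⟩
  obtain ⟨w, Φ, y, p1, p2, p3⟩ := hB e D b n L 1 (Nat.coprime_one_left _)
  have z := hT' b le n L Φ L.t p1 (by omega) fun v => a
    ((hI e D b n L k 1 (Nat.coprime_one_left _)).2 _ y _ w p2 (by omega) ((p3 _).2 v))
  refine ⟨L.t + cs D.ψ e.S, ?_, by rw [← e1, ← e2]; exact z⟩
  have := (hb n _ _ _ (lz n) (kd n) (cd n) B (l1.le.trans u)).2 le_rfl
  rwa [Lt.t, e1]

end Vale.Agent.P014Z.Gl
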