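import Vale.Agent.P014Z.Eis
import Vale.Agent.P014Z.St
import Vale.Agent.P014Y.Fin3

/-! # P014Z: the text over the parts at two and three, the primes from five on (helper30) -/

set_option autoImplicit false
set_option linter.all false

open Matrix
open scoped Classical

noncomputable section

namespace Vale.Agent.P014Z.Top

open Vale.Agent.P014 Vale.Agent.P014T Vale.Agent.P014U Vale.Agent.P014U.Top Vale.Agent.P014Y
open P014Y.Top (Irr BSD6 ndv ar_md)
open P014Y.F (Crv Fld)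
open Vale.Agent.P004F (hq)
open P014T.Sm (Md)
open P014X (HasCM)
open Rp (Fv Eis REDP)
open Gl (Ri Ei CHA ANZ)

section

variable [Pp]

theorem ri_of {e : Crv} (n : ¬ Irr e.par.disc) : Ri e := by
  simp only [Irr, not_forall, not_exists, not_not] at n
  obtain ⟨x, x0, k⟩ := n
  exact ⟨x, x0, k⟩

theorem eis_of {e : Crv} (h : Ei e) : Eis e :=
  h.imp fun _ k => ⟨k.1, k.2.imp (fun a g _ => a g) fun a g _ => a g⟩

theorem an5 (rp : REDP) (h : 5 ≤ pp) : AnC Eis := fun e c =>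
  (rp (by omega) e c).imp fun _ k b t _ => k b t

/-- **the anchor for reducible images from five on** -/
theorem ran5 (ch : CHA) (an : ANZ) (rp : REDP) (h : 5 ≤ pp) : RAN := fun e n =>
  (ch h e (ri_of n)).elim (fun c => an5 rp h e (eis_of c)) fun ⟨D⟩ =>
    (an e D).imp fun _ k b t _ => k b t

end

/-- the text; `D` is the class of pairs -/
def BSDW (D : WeierstrassCurve ℚ → ℕ → Prop) : Prop :=
  ∀ (E : WeierstrassCurve ℚ) [E.IsElliptic], GlobalMinimal E → (∃! L, IsHasseWeil E L) ∧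
  ∀ L, IsHasseWeil E L → ∀ r : ℕ, r ≤ 1 → analyticOrderAt L 1 = r →
    Module.finrank ℤ E.toAffine.Point = r ∧ Finite (Sha E) ∧
    (∃ P : Fin r → E.toAffine.Point, IsBasisModTorsion E P) ∧
    ∀ P : Fin r → E.toAffine.Point, IsBasisModTorsion E P → ∃ n : ℕ, n.Coprime 6 ∧
      iteratedDeriv r L 1 / (r.factorial : ℂ) = (n : ℂ) * ((realPeriod E * regulator E P *
        (Nat.card (Sha E) : ℝ) * (tamagawaProduct E : ℝ) / (torsionOrder E : ℝ) ^ 2 : ℝ) : ℂ) ∧
      (∀ p : ℕ, p.Prime → D E p → ¬ p ∣ n) ∧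
      (HasCM E ∨ (∀ p : ℕ, p.Prime → p ∣ n * Nat.card (Sha E) → p ≤ 3 ∨ D E p) → n = 1)

theorem five {n p : ℕ} (d : n.Coprime 6) (a : p.Prime) (z : p ∣ n) : 5 ≤ p :=
  a.five_le_of_ne_two_of_ne_three
    (fun y => a.one_lt.ne' (Nat.eq_one_of_dvd_coprimes d z (y ▸ by decide)))
    fun y => a.one_lt.ne' (Nat.eq_one_of_dvd_coprimes d z (y ▸ by decide))

theorem bsdw (bs : BSD6) (inv : ∀ [Pp], INV) {D : WeierstrassCurve ℚ → ℕ → Prop}
    {D' : ∀ [Pp] (A B : ℤ), El A B → Prop} (kk : ∀ [Pp], 5 ≤ pp → KK D')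
    (c : ∀ [Pp] (E : WeierstrassCurve ℚ) [E.IsElliptic] (A B : ℤ) u r s t (m : Md E A B u r s t),
      D E pp → D' A B m.hD) : BSDW D := fun E _ hm => by
  refine ⟨(bs E hm).1, fun L h r r1 o => ?_⟩
  obtain ⟨k1, k2, k3, k4⟩ := (bs E hm).2 L h r r1 o
  refine ⟨k1, k2, k3, fun P b => ?_⟩
  obtain ⟨n, d, e, w⟩ := k4 P b
  obtain ⟨A, B, u, v, s, t, m⟩ := Sm.ex_md E
  have q : ∀ p : ℕ, p.Prime → D E p → ¬ p ∣ n := fun p a x z => by
    have f := five d a z
    let _ : Pp := ⟨p, a, by omega⟩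
    exact ndv inv hm (Lk.hw h) m r1 o (kk f A B m.hD (c E A B u v s t m x) r r1 (ar_md m h o))
      b k2 e z
  refine ⟨n, d, e, q, fun y => y.elim (fun y => w (.inl y)) fun y => by_contra fun z => ?_⟩
  obtain ⟨p, a, j⟩ := Nat.exists_prime_and_dvd z
  have f := five d a j
  exact (y p a (j.mul_right _)).elim (by omega) fun x => q p a x j

/-- **all primes with a rational isogeny** -/
theorem bsw_red (bs : BSD6) (H : ∀ [Pp], Cmn) (ch : ∀ [Pp], CHA) (an : ∀ [Pp], ANZ)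
    (rp : ∀ [Pp], REDP) : BSDW HasIsog :=
  bsdw (D' := fun _ _ h => ¬ Irr h) bs H.inv (fun f => kkr H (ran5 ch an rp f))
    fun _ _ _ _ _ _ _ _ m x => red_of m x

/-- **all primes with a trivial constituent** -/
theorem bsw_triv (bs : BSD6) (H : ∀ [Pp], Cmn) (rp : ∀ [Pp], REDP) : BSDW HasTriv :=
  bsdw (D' := fun _ _ h => Fv ⊤ (Cp.ab (hq h))) bs H.inv (fun f => kk_eis H (an5 rp f))
    fun _ _ _ _ _ _ _ _ m x => fv_triv m x

end Vale.Agent.P014Z.Top
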