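import Vale.Agent.P014Y.All3
import Vale.Agent.P014Z.F.All
import Vale.Agent.P014Z.Ran

/-! # P014Z: the wiring of the rows which every case uses (helper30) -/

set_option autoImplicit false

namespace Vale.Agent.P014Z.Top

open Vale.Agent.P014U Vale.Agent.P014U.Top
open P014Y.Top (mt0 gld0 lgc0 fld0 bsd6_all)

theorem cmn [Pp] : Cmn :=
  ⟨P014T.Top.md_all, mt0, P014U.Tv.inv, gld0, P014Y.F.crv, fld0, P014Z.F.fx_all lgc0,
    P014Y.Kt.cnt0, P014Y.Pk.pak⟩

/-- a trivial constituent -/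
theorem triv_of (rp : ∀ [Pp], Rp.REDP) : BSDW HasTriv := bsw_triv bsd6_all cmn rp

/-- a rational isogeny -/
theorem isog_of (ch : ∀ [Pp], Gl.CHA) (an : ∀ [Pp], Gl.ANZ) (rp : ∀ [Pp], Rp.REDP) :
    BSDW HasIsog := bsw_red bsd6_all cmn ch an rp

end Vale.Agent.P014Z.Top
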