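import Vale.Agent.P014.Defs

/-! # P014Z: one more word of the statement -/

namespace Vale.Agent.P014Z

open Vale.Agent.P014
open scoped Classical

/-- The trivial representation is a constituent of `E[p]`: there is a point `P ≠ 0` of `E(ℚ̄)` which
is killed by `p` and which is rational, or such that the absolute Galois group acts trivially on the
quotient of `E[p]` by the multiples of `P`. -/
def HasTriv (E : WeierstrassCurve ℚ) (p : ℕ) : Prop :=
  ∃ P : Pbar E, P ≠ 0 ∧ p • P = 0 ∧ ((∀ σ : GQ, act E σ P = P) ∨
    ∀ (σ : GQ) (Q : Pbar E), p • Q = 0 → ∃ k : ℕ, act E σ Q = Q + k • P)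

end Vale.Agent.P014Z
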