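import Vale.Agent.P014Z.Top
import Vale.Agent.P014Z.Wd2
import Vale.Agent.P014Z.Rp.St3
import Vale.Agent.P014Y.Rd.Cas

/-! # P014Z: the case of a trivial constituent, the case split (helper30) -/

set_option autoImplicit false
set_option linter.all false

open Matrix
open scoped Classical

noncomputable section

namespace Vale.Agent.P014Z.Top

open Vale.Agent.P014 Vale.Agent.P014U Vale.Agent.P014U.Top Vale.Agent.P014Y
open P014Y.Top (Irr BSDY irt)
open P014Y.F (Crv Fld)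
open P014Y.Rd (Flg flg_of ex_flg st_of_fv dot_wp rot_ne RED3)
open Vale.Agent.P004F (hq)
open P004S (wp)
open P014T.Sm (Md)
open Rp (Fv Eis REDP)

/-- the anchor for a trivial constituent at every odd prime -/
theorem an_eis (r3 : RED3) (rp : ∀ [Pp], REDP) [i : Pp] : AnC Eis := by
  by_cases h : pp = 3
  · obtain ⟨p, a, b⟩ := i
    obtain rfl : p = 3 := h
    exact fun e c => (r3 e c).imp fun T k b t _ => k b t
  · exact fun e c => (rp h e c).imp fun T k b t _ => k b t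

variable [Pp] {A B A' B' : ℤ}

/-- **the split** -/
theorem ran_of (an : AnC Eis) (h : AnC fun e => ¬ Irr e.par.disc ∧ ¬ Eis e) : RAN :=
  (an.or h).mono fun e n => (em _).imp_right fun k => ⟨n, k⟩

theorem fv_iff (h : El A B) {θ θ' : P022.GQ →* ZMod pp} {v} (l : Flg (Cp.ab (hq h)) θ θ' v) :
    Fv ⊤ (Cp.ab (hq h)) ↔ (∀ g, θ g = 1) ∨ ∀ g, θ' g = 1 := (l.fv ⊤).trans (by simp)

theorem fv_flg (h : El A B) (k : Fv ⊤ (Cp.ab (hq h))) : ∃ θ θ' v, Flg (Cp.ab (hq h)) θ θ' v := by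
  obtain ⟨u, n, k⟩ := k
  obtain ⟨v, n, k⟩ := st_of_fv (a := Cp.ab (hq h))
    ⟨u, n, k.imp (fun k g => k g trivial) fun k g => k g trivial⟩
  obtain ⟨θ, θ', l⟩ := ex_flg _ n k
  exact ⟨θ, θ', v, l⟩

theorem tr_eq (h : El A B) (h' : El A' B') (f : Ae A B A' B') (g : P022.GQ) :
    (Cp.ab (hq h) g).trace = (Cp.ab (hq h') g).trace := by
  obtain ⟨M, m, e⟩ := iso _ _ _ _ h h' f
  have := congrArg PadicInt.toZMod (Li.tr m (e g))
  simpa only [Cp.ab_apply, trace_fin_two, map_add, map_apply] using this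

/-- transport along an isogeny -/
theorem fv_of (h : El A B) (h' : El A' B') (f : Ae A B A' B') (k : Fv ⊤ (Cp.ab (hq h))) :
    Fv ⊤ (Cp.ab (hq h')) := by
  obtain ⟨θ, θ', v, l⟩ := fv_flg h k
  obtain ⟨η, η', w, l'⟩ := flg_of (h := h') fun i =>
    l.not_irr h ((irt _ _ _ _ h' h).2.2 _ ((irt _ _ _ _ h' h).2.1 f.symm i) i)
  have z : ∀ g, η g = 1 ∨ η' g = 1 := fun g => by
    have a := ((l.tr g).symm.trans (tr_eq h h' f g)).trans (l'.tr g)
    have b := (l.om h g).trans (l'.om h' g).symm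
    rw [← sub_eq_zero, ← sub_eq_zero (a := η' g), ← mul_eq_zero]
    rcases (fv_iff h l).1 k with c | c <;> rw [c g] at a b <;> linear_combination a - b
  refine (fv_iff h' l').2 (by_contra fun n => ?_)
  rw [not_or, not_forall, not_forall] at n
  obtain ⟨⟨g, a⟩, g', b⟩ := n
  rcases z (g * g') with c | c <;> rw [map_mul] at c
  · exact a (by rwa [(z g').resolve_right b, mul_one] at c)
  · exact b (by rwa [(z g).resolve_left a, one_mul] at c)

theorem kk_eis (H : Cmn) (an : AnC Eis) : KK fun _ _ h => Fv ⊤ (Cp.ab (hq h)) :=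
  kk_an H an fun _ _ h e f k => fv_of h e.par.disc f k

/-- the word of the statement -/
theorem fv_triv {E : WeierstrassCurve ℚ} [E.IsElliptic] {u r s t : ℚ} (m : Md E A B u r s t)
    (h : HasTriv E pp) : Fv ⊤ (Cp.ab (hq m.hD)) := by
  obtain ⟨P, n, z, k⟩ := h
  let i := P014T.Sm.iso m P022.Qb
  obtain ⟨x, hx⟩ := Cp.ex_vv (hq m.hD) (t := i P)
    (by rw [pow_one, ← map_nsmul]; exact i.map_eq_zero_iff.2 z)
  have x0 : x ≠ 0 := fun z => n (i.map_eq_zero_iff.1 (by rw [← hx, z, map_zero]))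
  have e : ∀ g y, i (act E g (i.symm (Cp.vv (hq m.hD) y))) = Cp.vv _ (Cp.ab (hq m.hD) g *ᵥ y) :=
    fun g y => by
      rw [P014T.Sm.iso_act, AddEquiv.apply_symm_apply]
      exact Cp.ga_vv _ g y
  rcases k with k | k
  · refine ⟨x, x0, .inl fun g _ => Cp.vv_inj (hq m.hD) ?_⟩
    rw [← e, hx, AddEquiv.symm_apply_apply, k]
  · refine ⟨_, rot_ne x0, .inr fun g _ => funext fun j => ?_⟩
    obtain ⟨c, d⟩ := k g (i.symm (Cp.vv (hq m.hD) (Pi.single j 1)))
      (by rw [← map_nsmul]; exact i.symm.map_eq_zero_iff.2 (Cp.vv_pp _ _))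
    have q : Cp.ab (hq m.hD) g *ᵥ Pi.single j 1 = Pi.single j 1 + (c : ZMod pp) • x :=
      Cp.vv_inj (hq m.hD) (by
        rw [← e, d, map_add, map_add, AddEquiv.apply_symm_apply, Nat.cast_smul_eq_nsmul, map_nsmul,
          map_nsmul, hx])
    have := congrArg (![-x 1, x 0] ⬝ᵥ ·) q
    simp only [dotProduct_mulVec, dotProduct_add, dotProduct_smul, dotProduct_single, mul_one] at this
    rw [this, dot_wp, L2.wp_self, smul_zero, add_zero]

omit [Pp] in
/-- **all primes with a trivial constituent** -/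
theorem bsd_triv {C : WeierstrassCurve ℚ → Prop} (bs : BSDY C) (H : ∀ [Pp], Cmn) (r3 : RED3)
    (rp : ∀ [Pp], REDP) : BSDZ C HasTriv :=
  bsdz (D' := fun _ _ h => Fv ⊤ (Cp.ab (hq h))) bs H.inv (kk_eis H (an_eis r3 rp))
    fun _ _ _ _ _ _ _ _ m x => fv_triv m x

end Vale.Agent.P014Z.Top
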