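import Vale.Agent.P014Z.Wd
import Vale.Agent.P014Y.Top2
import Vale.Agent.P014Y.Fin2
import Vale.Agent.P014Y.Sui

/-! # P014Z: the top level at every odd prime (helper30) -/

set_option autoImplicit false
set_option linter.all false

open Matrix
open scoped Classical

noncomputable section

namespace Vale.Agent.P014Z.Top

open Vale.Agent.P014 Vale.Agent.P014T Vale.Agent.P014U Vale.Agent.P014U.Top Vale.Agent.P014Y
open P014Y.Top (Irr Par MT GLD PAK BSDY one_of nf_e irt ndv ar_md)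
open P014Y.F (Crv Fld CRV FLD FX)
open Vale.Agent.P004F (hq)
open P014Y.Kt (CNT)
open P014T.Sm (Md)
open P014X (HasCM)

section

variable [Pp]

/-- the anchor for the curves with the property `C` -/
def AnC (C : Crv → Prop) : Prop :=
  ∀ e : Crv, C e → ∃ T, ∀ b : Fld e, T ≤ b.δ' → Par b → b.Anc

/-- **the target: the anchor for reducible images** -/
def RAN : Prop := AnC fun e => ¬ Irr e.par.disc

theorem AnC.or {C D : Crv → Prop} (h : AnC C) (k : AnC D) : AnC fun e => C e ∨ D e :=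
  fun e c => c.elim (h e) (k e)

theorem AnC.mono {C D : Crv → Prop} (h : AnC C) (k : ∀ e, D e → C e) : AnC D :=
  fun e c => h e (k e c)

/-- a class of curves with the formula at `pp` -/
def KK (C : ∀ A B : ℤ, El A B → Prop) : Prop :=
  ∀ (A B : ℤ) (h : El A B), C A B h → ∀ r ≤ 1, Ar A B r → Di A B r 0

/-- the rows which every case uses -/
structure Cmn : Prop where
  md : MODN
  mt : MT
  inv : INV
  gld : GLD
  crv : CRV
  fld : FLD
  fx : FX
  cnt : CNT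
  pak : PAK

/-- from the anchor for one curve -/
theorem kk_an (H : Cmn) {C : Crv → Prop} {D : ∀ A B : ℤ, El A B → Prop} (an : AnC C)
    (tr : ∀ A B h (e : Crv), Ae A B e.A e.B → D A B h → C e) : KK D := fun A B h d r r1 ar => by
  obtain ⟨N, G, a, nf⟩ := H.md A B h
  obtain ⟨_, _, _, _, k⟩ := H.crv N G a N G a nf.rn nf.rn
  obtain ⟨e, -, ⟨rfl, rfl, rfl, -, -⟩, -⟩ := k ∅ fun _ m => (Finset.notMem_empty _ m).elim
  have f := nf.ae (nf_e e)
  obtain ⟨T₁, k1⟩ := an e (tr A B h e f d)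
  obtain ⟨T₂, k2⟩ := H.fld e e rfl rfl
  refine one_of H.mt H.inv H.gld H.cnt H.pak h r1 ar e e f (T₁ + T₂) fun δ le a _ => ?_
  obtain ⟨b, -, rfl, -⟩ := k2 δ (by omega) a
  exact ⟨b, rfl, fun p => H.fx e b (k1 b (by omega) p)⟩

/-- **the reducible case** -/
theorem kkr (H : Cmn) (an : RAN) : KK fun _ _ h => ¬ Irr h := kk_an H an fun A B h e f n i =>
  n ((irt _ _ _ _ e.par.disc h).2.2 _ ((irt _ _ _ _ e.par.disc h).2.1 f.symm i) i)

/-- the word of the statement -/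
theorem red_of {E : WeierstrassCurve ℚ} [E.IsElliptic] {A B : ℤ} {u r s t : ℚ}
    (m : Md E A B u r s t)
    (h : HasIsog E pp) : ¬ Irr m.hD := fun I => by
  obtain ⟨P, n, z, k⟩ := h
  let i := P014T.Sm.iso m P022.Qb
  obtain ⟨x, hx⟩ := Cp.ex_vv (hq m.hD) (t := i P)
    (by rw [pow_one, ← map_nsmul]; exact i.map_eq_zero_iff.2 z)
  obtain ⟨g, y⟩ := I x fun z => n (i.map_eq_zero_iff.1 (by rw [← hx, z, map_zero]))
  obtain ⟨j, e⟩ := k g
  refine y j (Cp.vv_inj (hq m.hD) ?_)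
  rw [Nat.cast_smul_eq_nsmul, map_nsmul, hx, ← map_nsmul, ← e, P014T.Sm.iso_act, ← hx]
  exact (Cp.ga_vv _ g x).symm

end

/-- the text; `C` is the class of curves for the prime three, `D` the class of pairs -/
def BSDZ (C : WeierstrassCurve ℚ → Prop) (D : WeierstrassCurve ℚ → ℕ → Prop) : Prop :=
  ∀ (E : WeierstrassCurve ℚ) [E.IsElliptic], GlobalMinimal E → (∃! L, IsHasseWeil E L) ∧
  ∀ L, IsHasseWeil E L → ∀ r : ℕ, r ≤ 1 → analyticOrderAt L 1 = r →
    Module.finrank ℤ E.toAffine.Point = r ∧ Finite (Sha E) ∧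
    (∃ P : Fin r → E.toAffine.Point, IsBasisModTorsion E P) ∧
    ∀ P : Fin r → E.toAffine.Point, IsBasisModTorsion E P → ∃ n : ℕ, Odd n ∧
      iteratedDeriv r L 1 / (r.factorial : ℂ) = (n : ℂ) * ((realPeriod E * regulator E P *
        (Nat.card (Sha E) : ℝ) * (tamagawaProduct E : ℝ) / (torsionOrder E : ℝ) ^ 2 : ℝ) : ℂ) ∧
      (HasCM E ∨ (∃ k : ℕ, n * Nat.card (Sha E) = 2 ^ k) → n = 1) ∧ (C E → ¬ 3 ∣ n) ∧
      ∀ p : ℕ, p.Prime → D E p → ¬ p ∣ n

theorem bsdz {C : WeierstrassCurve ℚ → Prop} (bs : BSDY C) (inv : ∀ [Pp], INV)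
    {D : WeierstrassCurve ℚ → ℕ → Prop} {D' : ∀ [Pp] (A B : ℤ), El A B → Prop}
    (kk : ∀ [Pp], KK D') (c : ∀ [Pp] (E : WeierstrassCurve ℚ) [E.IsElliptic]
      (A B : ℤ) u r s t (m : Md E A B u r s t), D E pp → D' A B m.hD) : BSDZ C D := fun E _ hm => by
  refine ⟨(bs E hm).1, fun L h r r1 o => ?_⟩
  obtain ⟨k1, k2, k3, k4⟩ := (bs E hm).2 L h r r1 o
  refine ⟨k1, k2, k3, fun P b => ?_⟩
  obtain ⟨n, d, e, w, w'⟩ := k4 P b
  obtain ⟨A, B, u, v, s, t, m⟩ := Sm.ex_md E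
  refine ⟨n, d, e, w, w', fun p a x z => ?_⟩
  let _ : Pp := ⟨p, a, fun y => d.not_two_dvd_nat (y ▸ z)⟩
  exact ndv inv hm (Lk.hw h) m r1 o (kk A B m.hD (c E A B u v s t m x) r r1 (ar_md m h o)) b k2 e z

/-- **all primes with a rational isogeny** -/
theorem bsd_red {C : WeierstrassCurve ℚ → Prop} (bs : BSDY C) (H : ∀ [Pp], Cmn)
    (an : ∀ [Pp], RAN) : BSDZ C HasIsog :=
  bsdz (D' := fun _ _ h => ¬ Irr h) bs H.inv (kkr H an) fun _ _ _ _ _ _ _ _ m x => red_of m x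

end Vale.Agent.P014Z.Top
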