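import Vale.Agent.P014.Defs

/-! # P014Z: the word of the statement -/

namespace Vale.Agent.P014Z

open Vale.Agent.P014
open scoped Classical

/-- `E` has a rational isogeny of prime degree `p`, that is `E[p]` is reducible: a point `P ≠ 0` of
`E(ℚ̄)` which is killed by `p` generates a subgroup which is stable under the absolute Galois
group. -/
def HasIsog (E : WeierstrassCurve ℚ) (p : ℕ) : Prop :=
  ∃ P : Pbar E, P ≠ 0 ∧ p • P = 0 ∧ ∀ σ : GQ, ∃ k : ℕ, act E σ P = k • P

end Vale.Agent.P014Z
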